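import Vale.Agent.P273.H787.Core0
import Vale.Agent.P273.H973.Pol

/-!
# P273, row ASY1, zones (helper787)

`RootO`, `PairO`, `FarO` of helper730 for every one mark gauge which is a cut-off flat form.
-/

noncomputable section

namespace Vale.Agent.P273.H787

open Set Filter H95 H973 H214 H604 H730
open H681 (XX C6)
open scoped Topology ContDiff

/-- In the chart `x` the one mark gauge is the cut-off form of the flat form `η`, `A`. -/
structure IsCutOf (O : One) (η : (Fin 6 → ℝ) → Bs → ℂ → ℂ → (Bs × ℂ →L[ℝ] ℝ))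
    (A : (Fin 6 → ℝ) → Bs → (ℂ × ℂ →L[ℝ] ℝ)) : Prop where
  flat : ∀ ξ, IsCl ξ → FlatOn XX (η ξ) (A ξ)
  eq : ∀ ξ b x v, IsCl ξ → b ∈ XX → On1 false (b, x) v →
    O.η ξ false (b, x) v = etaP (η ξ) (A ξ) b x v

theorem on1_iff {b : C6} {x v : ℂ} : On1 false (b, x) v ↔ v ^ 2 = ff (b, x) ∧ v ≠ 0 := by
  unfold On1
  rw [pol_false]
  rfl

theorem On1.ne {b : C6} {x v : ℂ} (h : On1 false (b, x) v) (i : Fin 6) : x ≠ b i := by
  obtain ⟨h1, h2⟩ := on1_iff.1 h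
  have h3 : ff (b, x) ≠ 0 := by rw [← h1]; exact pow_ne_zero 2 h2
  exact ff_ne_zero_iff.1 h3 i

variable {k : Fin 5}

theorem cs_ne_s (k : Fin 5) : k.castSucc ≠ k.succ := by
  intro h
  have := congrArg Fin.val h
  simp at this

theorem bd_left (k : Fin 5) (q : C6) (d : ℂ) : bd k q d k.castSucc = q k.castSucc - d := by
  simp [bd, H828.pr]

theorem bd_right (k : Fin 5) (q : C6) (d : ℂ) : bd k q d k.succ = q k.castSucc + d := by
  simp [bd, H828.pr, (cs_ne_s k).symm]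

theorem bd_other (k : Fin 5) (q : C6) (d : ℂ) {l : Fin 6} (h1 : l ≠ k.castSucc)
    (h2 : l ≠ k.succ) : bd k q d l = q l := by
  simp [bd, H828.pr, h1, h2]

theorem norm_bd_sub_le {q : C6} (hq : q ∈ H828.XD k) (d : ℂ) : ‖bd k q d - q‖ ≤ ‖d‖ := by
  rw [pi_norm_le_iff_of_nonneg (norm_nonneg d)]
  intro i
  by_cases h1 : i = k.castSucc
  · subst h1
    rw [Pi.sub_apply, bd_left, sub_sub_cancel_left, norm_neg]
  · by_cases h2 : i = k.succ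
    · subst h2
      rw [Pi.sub_apply, bd_right, ← hq.1, add_sub_cancel_left]
    · rw [Pi.sub_apply, bd_other k q d h1 h2, sub_self, norm_zero]
      exact norm_nonneg d

/-- the other roots are simple -/
theorem XD_ne {q : C6} (hq : q ∈ H828.XD k) {i j : Fin 6} (hij : i ≠ j)
    (h : ¬ ((i = k.castSucc ∧ j = k.succ) ∨ (j = k.castSucc ∧ i = k.succ))) : q i ≠ q j := by
  intro he
  rcases lt_or_gt_of_ne hij with hlt | hlt
  · have h1 := hq.2 i j hlt (by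
      by_contra h2
      push Not at h2
      exact h (Or.inl h2)) (by rw [he])
    rw [he] at h1
    exact lt_irrefl _ h1
  · have h1 := hq.2 j i hlt (by
      by_contra h2
      push Not at h2
      exact h (Or.inr h2)) (by rw [he])
    rw [he] at h1
    exact lt_irrefl _ h1

theorem mem_Cj_of_XD {q : C6} (hq : q ∈ H828.XD k) {l : Fin 6} (h1 : l ≠ k.castSucc)
    (h2 : l ≠ k.succ) : q ∈ Cj l := by
  intro i hi
  refine XD_ne hq hi ?_
  rintro (⟨-, h⟩ | ⟨h, -⟩)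
  · exact h2 h
  · exact h1 h

/-- compact neighbourhood of a merged configuration on which the other roots are simple and at
distance at least `dl` from all roots -/
theorem exists_nbhd {q₀ : C6} (hq₀ : q₀ ∈ H828.XD k) :
    ∃ ρ > 0, ∃ dl > 0, ∀ b ∈ Metric.closedBall q₀ ρ,
      ∀ l i : Fin 6, l ≠ k.castSucc → l ≠ k.succ → i ≠ l → dl ≤ ‖b i - b l‖ := by
  have h1 : ∀ p : {p : Fin 6 × Fin 6 // p.1 ≠ k.castSucc ∧ p.1 ≠ k.succ ∧ p.2 ≠ p.1},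
      0 < ‖q₀ p.1.2 - q₀ p.1.1‖ := fun p =>
    norm_pos_iff.2 (sub_ne_zero.2 (mem_Cj_of_XD hq₀ p.2.1 p.2.2.1 _ p.2.2.2))
  obtain ⟨dl, hdl, hle⟩ : ∃ dl > 0, ∀ p : {p : Fin 6 × Fin 6 //
      p.1 ≠ k.castSucc ∧ p.1 ≠ k.succ ∧ p.2 ≠ p.1}, 4 * dl ≤ ‖q₀ p.1.2 - q₀ p.1.1‖ := by
    by_cases hne : Nonempty {p : Fin 6 × Fin 6 // p.1 ≠ k.castSucc ∧ p.1 ≠ k.succ ∧ p.2 ≠ p.1}
    · obtain ⟨p0, hp0⟩ := Finite.exists_min (fun p : {p : Fin 6 × Fin 6 //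
        p.1 ≠ k.castSucc ∧ p.1 ≠ k.succ ∧ p.2 ≠ p.1} => ‖q₀ p.1.2 - q₀ p.1.1‖)
      refine ⟨‖q₀ p0.1.2 - q₀ p0.1.1‖ / 4, by have := h1 p0; positivity, fun p => ?_⟩
      have := hp0 p
      linarith
    · exact ⟨1, one_pos, fun p => absurd ⟨p⟩ hne⟩
  refine ⟨dl, hdl, dl, hdl, fun b hb l i hl1 hl2 hil => ?_⟩
  have h2 := hle ⟨(l, i), hl1, hl2, hil⟩
  rw [Metric.mem_closedBall, dist_eq_norm] at hb
  have h3 : ‖(b - q₀) i‖ ≤ dl := (norm_le_pi_norm _ i).trans hb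
  have h4 : ‖(b - q₀) l‖ ≤ dl := (norm_le_pi_norm _ l).trans hb
  have h5 : q₀ i - q₀ l = (b i - b l) - ((b - q₀) i - (b - q₀) l) := by
    simp only [Pi.sub_apply]; ring
  have h6 : ‖q₀ i - q₀ l‖ ≤ ‖b i - b l‖ + (‖(b - q₀) i‖ + ‖(b - q₀) l‖) := by
    rw [h5]
    exact (norm_sub_le _ _).trans (add_le_add le_rfl (norm_sub_le _ _))
  simp only at h2
  linarith

/-- the scale of the other roots -/
theorem hh_ge {b : Bs} {l : Fin 6} {dl : ℝ} (hdl : 0 < dl)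
    (h : ∀ i, i ≠ l → dl ≤ ‖b i - b l‖) : dl ^ 2 / 5 ≤ hh b l := by
  have h1 : ∑ i ∈ Finset.univ.erase l, (‖b i - b l‖ ^ 2)⁻¹ ≤ 5 * (dl ^ 2)⁻¹ := by
    have h2 : ∀ i ∈ Finset.univ.erase l, (‖b i - b l‖ ^ 2)⁻¹ ≤ (dl ^ 2)⁻¹ := fun i hi =>
      inv_anti₀ (by positivity) (pow_le_pow_left₀ hdl.le (h i (Finset.mem_erase.1 hi).1) 2)
    refine (Finset.sum_le_card_nsmul _ _ _ h2).trans (le_of_eq ?_)
    rw [Finset.card_erase_of_mem (Finset.mem_univ l)]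
    simp
  have h3 : b ∈ Cj l := fun i hi he => by
    have := h i hi
    rw [he, sub_self, norm_zero] at this
    linarith
  have h4 := sum_pos_of_Cj h3
  unfold hh
  calc dl ^ 2 / 5 = (5 * (dl ^ 2)⁻¹)⁻¹ := by
        rw [mul_inv, inv_inv]; ring
    _ ≤ _ := inv_anti₀ h4 h1

/-- the scale of the two roots of the pair -/
theorem hh_pair_ge {q : C6} {d : ℂ} (hd : d ≠ 0) {dl : ℝ} (hdl : 0 < dl) {j : Fin 6}
    (hj : j = k.castSucc ∨ j = k.succ)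
    (h : ∀ l, l ≠ k.castSucc → l ≠ k.succ → dl ≤ ‖bd k q d l - bd k q d j‖)
    (hsm : 16 * ‖d‖ ^ 2 ≤ 3 * dl ^ 2) : ‖d‖ ^ 2 ≤ hh (bd k q d) j := by
  have hd0 : 0 < ‖d‖ := norm_pos_iff.2 hd
  obtain ⟨j', hj', hjj, hdist, hoth⟩ : ∃ j' : Fin 6, j' ∈ Finset.univ.erase j ∧ j' ≠ j ∧
      ‖bd k q d j' - bd k q d j‖ = 2 * ‖d‖ ∧
      ∀ i, i ≠ j → i ≠ j' → i ≠ k.castSucc ∧ i ≠ k.succ := by
    rcases hj with rfl | rfl
    · refine ⟨k.succ, by simp [(cs_ne_s k).symm], (cs_ne_s k).symm, ?_, fun i h1 h2 => ⟨h1, h2⟩⟩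
      rw [bd_left, bd_right, show q k.castSucc + d - (q k.castSucc - d) = 2 * d by ring, norm_mul]
      simp
    · refine ⟨k.castSucc, by simp [cs_ne_s k], cs_ne_s k, ?_, fun i h1 h2 => ⟨h2, h1⟩⟩
      rw [bd_left, bd_right, show q k.castSucc - d - (q k.castSucc + d) = -(2 * d) by ring,
        norm_neg, norm_mul]
      simp
  have h1 : ∑ i ∈ Finset.univ.erase j, (‖bd k q d i - bd k q d j‖ ^ 2)⁻¹ ≤
      ((2 * ‖d‖) ^ 2)⁻¹ + 4 * (dl ^ 2)⁻¹ := by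
    rw [← Finset.add_sum_erase _ _ hj', hdist]
    refine add_le_add le_rfl ?_
    have h2 : ∀ i ∈ (Finset.univ.erase j).erase j', (‖bd k q d i - bd k q d j‖ ^ 2)⁻¹ ≤
        (dl ^ 2)⁻¹ := fun i hi => by
      have h3 := Finset.mem_erase.1 hi
      have h4 := hoth i (Finset.mem_erase.1 h3.2).1 h3.1
      exact inv_anti₀ (by positivity) (pow_le_pow_left₀ hdl.le (h i h4.1 h4.2) 2)
    refine (Finset.sum_le_card_nsmul _ _ _ h2).trans (le_of_eq ?_)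
    rw [Finset.card_erase_of_mem hj', Finset.card_erase_of_mem (Finset.mem_univ j)]
    simp
  have h5 : ((2 * ‖d‖) ^ 2)⁻¹ + 4 * (dl ^ 2)⁻¹ ≤ (‖d‖ ^ 2)⁻¹ := by
    rw [← sub_nonneg]
    have h6 : (‖d‖ ^ 2)⁻¹ - (((2 * ‖d‖) ^ 2)⁻¹ + 4 * (dl ^ 2)⁻¹) =
        (3 * dl ^ 2 - 16 * ‖d‖ ^ 2) / (4 * ‖d‖ ^ 2 * dl ^ 2) := by
      field_simp
      ring
    rw [h6]
    exact div_nonneg (by linarith) (by positivity)
  have h7 : 0 < ∑ i ∈ Finset.univ.erase j, (‖bd k q d i - bd k q d j‖ ^ 2)⁻¹ := by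
    refine lt_of_lt_of_le ?_ (Finset.single_le_sum (f := fun i =>
      (‖bd k q d i - bd k q d j‖ ^ 2)⁻¹) (fun i _ => by positivity) hj')
    rw [hdist]
    positivity
  unfold hh
  calc ‖d‖ ^ 2 = ((‖d‖ ^ 2)⁻¹)⁻¹ := (inv_inv _).symm
    _ ≤ _ := inv_anti₀ h7 (h1.trans h5)

theorem bd_mem_ball {q₀ q : C6} {ρ : ℝ} (hq : q ∈ Metric.ball q₀ (ρ / 2)) (hX : q ∈ H828.XD k)
    {d : ℂ} (hd : ‖d‖ < ρ / 2) : bd k q d ∈ Metric.closedBall q₀ ρ := by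
  rw [Metric.mem_ball, dist_eq_norm] at hq
  rw [Metric.mem_closedBall, dist_eq_norm]
  have h1 := norm_bd_sub_le hX d
  have h2 : bd k q d - q₀ = (bd k q d - q) + (q - q₀) := by abel
  rw [h2]
  exact (norm_add_le _ _).trans (by linarith)

variable {O : One} {η : (Fin 6 → ℝ) → Bs → ℂ → ℂ → (Bs × ℂ →L[ℝ] ℝ)}
  {A : (Fin 6 → ℝ) → Bs → (ℂ × ℂ →L[ℝ] ℝ)}

/-- **Zero near the other roots.** -/
theorem rootO_of (h : IsCutOf O η A) : RootO O := by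
  intro k q₀ hq₀
  obtain ⟨ρ, hρ, dl, hdl, hsep⟩ := exists_nbhd hq₀
  refine ⟨Metric.ball q₀ (ρ / 2), Metric.ball_mem_nhds _ (by positivity),
    min (ρ / 2) (dl / 24), lt_min (by positivity) (by positivity), ?_⟩
  intro q hq hX d hd hb l hl1 hl2 ξ x v hξ hx hv
  have hB := bd_mem_ball hq hX (hd.trans_le (min_le_left _ _))
  have hF := h.flat ξ hξ
  have e1 : bd k q d l = q l := bd_other k q d hl1 hl2
  have h1 := hh_ge hdl fun i hi => hsep _ hB l i hl1 hl2 hi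
  rw [h.eq ξ _ x v hξ hb hv]
  refine etaP_eq_zero hF (j := l) hb ?_ (On1.ne hv l) (on1_iff.1 hv).1
  have h2 : ‖x - bd k q d l‖ < dl / 24 := by
    rw [e1]; exact hx.trans_le (min_le_right _ _)
  have h3 : ‖x - bd k q d l‖ ^ 2 < (dl / 24) ^ 2 :=
    pow_lt_pow_left₀ h2 (norm_nonneg _) two_ne_zero
  nlinarith

/-- **Zero near the roots of the pair.** -/
theorem pairO_of (h : IsCutOf O η A) : PairO O := by
  intro k q₀ hq₀
  obtain ⟨ρ, hρ, dl, hdl, hsep⟩ := exists_nbhd hq₀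
  refine ⟨Metric.ball q₀ (ρ / 2), Metric.ball_mem_nhds _ (by positivity),
    min (ρ / 2) (dl / 4), lt_min (by positivity) (by positivity), ?_⟩
  intro q hq hX d hd hb σ hσ ξ x v hξ hx hv
  have hB := bd_mem_ball hq hX (hd.trans_le (min_le_left _ _))
  have hF := h.flat ξ hξ
  have hd0 : d ≠ 0 := by
    rintro rfl
    rw [norm_zero, zero_div] at hx
    exact absurd hx (not_lt.2 (norm_nonneg _))
  have hdn : 0 < ‖d‖ := norm_pos_iff.2 hd0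
  have hd4 : ‖d‖ < dl / 4 := hd.trans_le (min_le_right _ _)
  obtain ⟨j, hj, hje⟩ : ∃ j : Fin 6, (j = k.castSucc ∨ j = k.succ) ∧
      bd k q d j = q k.castSucc + σ * d := by
    rcases sq_eq_one_iff.1 hσ with rfl | rfl
    · exact ⟨k.succ, Or.inr rfl, by rw [bd_right, one_mul]⟩
    · exact ⟨k.castSucc, Or.inl rfl, by rw [bd_left]; ring⟩
  have hjl : ∀ l, l ≠ k.castSucc → l ≠ k.succ → j ≠ l := by
    intro l h1 h2 he
    rcases hj with h3 | h3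
    · exact h1 (he ▸ h3)
    · exact h2 (he ▸ h3)
  have h1 : ‖d‖ ^ 2 ≤ hh (bd k q d) j := by
    refine hh_pair_ge hd0 hdl hj (fun l h2 h3 => ?_) ?_
    · rw [norm_sub_rev]
      exact hsep _ hB l j h2 h3 (hjl l h2 h3)
    · nlinarith
  rw [h.eq ξ _ x v hξ hb hv]
  refine etaP_eq_zero hF (j := j) hb ?_ (On1.ne hv j) (on1_iff.1 hv).1
  rw [hje]
  have h3 : ‖x - (q k.castSucc + σ * d)‖ ^ 2 < (‖d‖ / 8) ^ 2 :=
    pow_lt_pow_left₀ hx (norm_nonneg _) two_ne_zero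
  nlinarith

/-- **No vertical part far away.** -/
theorem farO_of (h : IsCutOf O η A) : FarO O := by
  intro k q₀ hq₀
  obtain ⟨b₀, -, hmax⟩ := (isCompact_closedBall q₀ (1 : ℝ)).exists_isMaxOn
    ⟨q₀, Metric.mem_closedBall_self zero_le_one⟩ continuous_Rr.continuousOn
  have hR := Rr_pos b₀
  refine ⟨Metric.ball q₀ (1 / 2), Metric.ball_mem_nhds _ (by positivity), 1 / 2, by positivity,
    2 * Rr b₀, by positivity, ?_⟩
  intro q hq hX d hd hb ξ x v hξ hx hv w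
  have hB := bd_mem_ball hq hX hd
  have h1 : Rr (bd k q d) ≤ Rr b₀ := hmax hB
  have h2 : (bd k q d, x) ∈ Far := far_of_le (by linarith)
  rw [h.eq ξ _ x v hξ hb hv]
  exact etaP_vert_far (h.flat ξ hξ) hb h2 (on1_iff.1 hv).1 w

end Vale.Agent.P273.H787

end
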