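import Vale.Agent.P273.H730.One1
import Vale.Agent.P273.H604.GInf

/-!
# P273, row ASY1-CORE, cut-off half (helper787): tools

Smoothness and bounds of the cut-offs near a configuration where other roots may coincide; the form
at infinity as a limit.
-/

noncomputable section

namespace Vale.Agent.P273.H787

open Set Filter H214 H604
open H681 (XX C6)
open scoped Topology ContDiff

/-! ## Cut-offs at an isolated root -/

/-- the root `j` is simple -/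
def Cj (j : Fin 6) : Set Bs := {b | ∀ i, i ≠ j → b i ≠ b j}

theorem isOpen_Cj (j : Fin 6) : IsOpen (Cj j) := by
  have : Cj j = ⋂ i : {i : Fin 6 // i ≠ j}, {b : Bs | b i ≠ b j} := by
    ext b; simp [Cj]
  rw [this]
  exact isOpen_iInter_of_finite fun i => isOpen_ne_fun (by fun_prop) (by fun_prop)

theorem sum_pos_of_Cj {b : Bs} {j : Fin 6} (hb : b ∈ Cj j) :
    0 < ∑ i ∈ Finset.univ.erase j, (‖b i - b j‖ ^ 2)⁻¹ := by
  refine Finset.sum_pos (fun i hi => ?_) ?_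
  · have h1 : b i - b j ≠ 0 := sub_ne_zero.2 (hb i (Finset.mem_erase.1 hi).1)
    positivity
  · exact ⟨j + 1, Finset.mem_erase.2 ⟨by fin_cases j <;> decide, Finset.mem_univ _⟩⟩

theorem hh_pos_of_Cj {b : Bs} {j : Fin 6} (hb : b ∈ Cj j) : 0 < hh b j :=
  inv_pos.2 (sum_pos_of_Cj hb)

theorem contDiffAt_hh_of_Cj {b : Bs} {j : Fin 6} (hb : b ∈ Cj j) :
    ContDiffAt ℝ ∞ (fun b : Bs => hh b j) b := by
  unfold hh
  refine ContDiffAt.inv ?_ (sum_pos_of_Cj hb).ne'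
  refine ContDiffAt.sum fun i hi => ?_
  refine ContDiffAt.inv (contDiff_normSq_sub i j).contDiffAt ?_
  have h1 : b i - b j ≠ 0 := sub_ne_zero.2 (hb i (Finset.mem_erase.1 hi).1)
  positivity

theorem contDiffAt_chiW_of_Cj {b : Bs} {j : Fin 6} (hb : b ∈ Cj j) (x : ℂ) :
    ContDiffAt ℝ ∞ (fun p : Bs × ℂ => chiW p.1 j p.2) (b, x) := by
  unfold chiW
  refine (Real.smoothTransition.contDiff (n := (⊤ : ℕ∞))).contDiffAt.comp (b, x) ?_
  have h1 : ContDiffAt ℝ ∞ (fun p : Bs × ℂ => hh p.1 j) (b, x) :=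
    ContDiffAt.comp (g := fun b : Bs => hh b j) (f := Prod.fst) (b, x) (contDiffAt_hh_of_Cj hb)
      contDiffAt_fst
  have h2 : ContDiff ℝ ∞ (fun p : Bs × ℂ => ‖p.2 - p.1 j‖ ^ 2) := by
    have h : ContDiff ℝ ∞ (fun p : Bs × ℂ => p.2 - p.1 j) := by fun_prop
    exact h.norm_sq ℝ
  exact contDiffAt_const.sub ((contDiffAt_const.mul h2.contDiffAt).div h1 (hh_pos_of_Cj hb).ne')

/-- the derivative of a smooth function is bounded on compact sets -/
theorem exists_fderiv_bound {f : Bs × ℂ → ℝ} {V : Set Bs} (hV : IsCompact V)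
    (hf : ∀ b ∈ V, ∀ x, ContDiffAt ℝ ∞ f (b, x)) (R : ℝ) :
    ∃ C, 0 ≤ C ∧ ∀ b ∈ V, ∀ x, ‖x‖ ≤ R → ‖fderiv ℝ f (b, x)‖ ≤ C := by
  have hK : IsCompact (V ×ˢ Metric.closedBall (0 : ℂ) R) :=
    hV.prod (isCompact_closedBall (0 : ℂ) R)
  have hc : ContinuousOn (fun p => fderiv ℝ f p) (V ×ˢ Metric.closedBall (0 : ℂ) R) := by
    rintro ⟨b, x⟩ ⟨hb, _⟩
    exact ((hf b hb x).fderiv_right (m := 0) (by simp)).continuousAt.continuousWithinAt
  obtain ⟨C, hC⟩ := hK.exists_bound_of_continuousOn hc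
  refine ⟨max C 0, le_max_right _ _, fun b hb x hx => ?_⟩
  exact (hC (b, x) ⟨hb, by simpa using hx⟩).trans (le_max_left _ _)

/-- lower bound of the scale -/
theorem exists_hh_bound {j : Fin 6} {V : Set Bs} (hV : IsCompact V) (hVj : V ⊆ Cj j) :
    ∃ r, 0 < r ∧ ∀ b ∈ V, (8 * r) ^ 2 ≤ hh b j := by
  rcases V.eq_empty_or_nonempty with h | h
  · exact ⟨1, one_pos, fun b hb => absurd hb (by simp [h])⟩
  · have hc : ContinuousOn (fun b => hh b j) V := fun b hb =>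
      (contDiffAt_hh_of_Cj (hVj hb)).continuousAt.continuousWithinAt
    obtain ⟨b0, hb0, hmin⟩ := hV.exists_isMinOn h hc
    have h0 := hh_pos_of_Cj (hVj hb0)
    refine ⟨Real.sqrt (hh b0 j) / 8, by positivity, fun b hb => ?_⟩
    have h1 : (8 * (Real.sqrt (hh b0 j) / 8)) ^ 2 = hh b0 j := by
      rw [mul_div_cancel₀ _ (by norm_num), Real.sq_sqrt h0.le]
    rw [h1]
    exact hmin hb

/-! ## The form at infinity as a limit -/

section Inf

variable {H : Type*} [NormedAddCommGroup H] [NormedSpace ℝ H]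
variable {O : Set Bs} {η : Bs → ℂ → ℂ → (Bs × ℂ →L[ℝ] H)} {A : Bs → (ℂ × ℂ →L[ℝ] H)}

/-- the primitive near infinity in the coordinate `w = 1/x` -/
def Gw (A : Bs → (ℂ × ℂ →L[ℝ] H)) (p : Bs × ℂ) : H :=
  A p.1 (-(p.2 ^ 2 * Iinf 0 p.1 p.2), -(p.2 * Iinf 1 p.1 p.2))

theorem eI_eq_Gw {p : Bs × ℂ} (hp : p ∈ Far) : eI A Yinf p = Gw A (p.1, p.2⁻¹) := by
  have h0 := Far.ne_zero hp
  have h1 := EIc_branch (k := 0) (b := p.1) (x := p.2) (y := Yinf p) (sg := 1) (by norm_num) h0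
    (by norm_num) (by rw [one_mul]; rfl)
  have h2 := EIc_branch (k := 1) (b := p.1) (x := p.2) (y := Yinf p) (sg := 1) le_rfl h0
    (by norm_num) (by rw [one_mul]; rfl)
  unfold eI Gw EIv
  rw [h1, h2]
  simp only [Nat.sub_zero, neg_mul, one_mul, Nat.reduceSub, pow_one]

theorem contDiffAt_Gw {p : Bs × ℂ} (hA : ContDiffAt ℝ ∞ A p.1) (hp : p ∈ DI) :
    ContDiffAt ℝ ∞ (Gw A) p := by
  unfold Gw
  have h1 : ContDiffAt ℝ ∞ (fun q : Bs × ℂ => A q.1) p :=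
    ContDiffAt.comp (g := A) (f := Prod.fst) p hA contDiffAt_fst
  have h2 : ∀ k, ContDiffAt ℝ ∞ (fun q : Bs × ℂ => Iinf k q.1 q.2) p := fun k =>
    (contDiffOn_Iinf k).contDiffAt (isOpen_DI.mem_nhds hp)
  have h3 : ContDiffAt ℝ ∞ (fun q : Bs × ℂ => q.2) p := contDiffAt_snd
  exact h1.clm_apply (((h3.pow 2).mul (h2 0)).neg.prodMk (h3.mul (h2 1)).neg)

theorem Gw_zero (b : Bs) : Gw A (b, 0) = 0 := by
  unfold Gw
  simp only [ne_eq, OfNat.ofNat_ne_zero, not_false_eq_true, zero_pow, zero_mul, neg_zero]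
  exact map_zero _

theorem far_of_le {b : Bs} {x : ℂ} (h : 2 * Rr b ≤ ‖x‖) : (b, x) ∈ Far := by
  have h0 := Rr_pos b
  change 2 * Rr b ^ 2 < ‖x‖ ^ 2
  nlinarith

/-- `Cinf` is the limit of the horizontal part of `η` -/
theorem tendsto_Cinf (h : FlatOn O η A) {b : Bs} (hb : b ∈ O) (β : Bs) :
    Tendsto (fun t : ℝ => η b (t : ℂ) (Yinf (b, (t : ℂ))) (β, 0)) atTop
      (𝓝 (Cinf η A b β)) := by
  have hfar : ∀ᶠ t : ℝ in atTop, (b, (t : ℂ)) ∈ Far := by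
    filter_upwards [eventually_ge_atTop (2 * Rr b), eventually_ge_atTop 0] with t ht ht0
    refine far_of_le ?_
    rwa [Complex.norm_real, Real.norm_eq_abs, abs_of_nonneg ht0]
  have hinv : Tendsto (fun t : ℝ => ((t : ℂ))⁻¹) atTop (𝓝 0) := by
    have h1 : Tendsto (fun t : ℝ => ((t⁻¹ : ℝ) : ℂ)) atTop (𝓝 ((0 : ℝ) : ℂ)) :=
      (Complex.continuous_ofReal.tendsto 0).comp tendsto_inv_atTop_zero
    simpa using h1
  have hG : Tendsto (fun t : ℝ => fderiv ℝ (Gw A) (b, ((t : ℂ))⁻¹) (β, 0)) atTop (𝓝 0) := by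
    have h1 : ContinuousAt (fun p => fderiv ℝ (Gw A) p) (b, 0) :=
      ((contDiffAt_Gw (h.smoothA b hb) (mem_DI_zero b)).fderiv_right (m := 0)
        (by simp)).continuousAt
    have h2 : Tendsto (fun t : ℝ => ((b, ((t : ℂ))⁻¹) : Bs × ℂ)) atTop (𝓝 (b, 0)) :=
      tendsto_const_nhds.prodMk_nhds hinv
    have h3 : Tendsto (fun t : ℝ => fderiv ℝ (Gw A) (b, ((t : ℂ))⁻¹) (β, 0)) atTop
        (𝓝 (fderiv ℝ (Gw A) (b, 0) (β, 0))) :=
      ((ContinuousLinearMap.apply ℝ H ((β, 0) : Bs × ℂ)).continuous.tendsto _).comp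
        (h1.tendsto.comp h2)
    have h4 : fderiv ℝ (Gw A) (b, 0) (β, 0) = 0 := by
      have h5 : HasFDerivAt (Gw A) (fderiv ℝ (Gw A) (b, 0)) (b, 0) :=
        ((contDiffAt_Gw (h.smoothA b hb) (mem_DI_zero b)).differentiableAt
          (by simp)).hasFDerivAt
      have h6 : HasFDerivAt (fun c : Bs => Gw A (c, 0))
          ((fderiv ℝ (Gw A) (b, 0)).comp (ContinuousLinearMap.inl ℝ Bs ℂ)) b :=
        HasFDerivAt.comp (g := Gw A) (f := fun c : Bs => ((c, 0) : Bs × ℂ)) b h5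
          (hasFDerivAt_prodMk_left b 0)
      have h7 : (fun c : Bs => Gw A (c, 0)) = fun _ => (0 : H) := funext fun c => Gw_zero c
      rw [h7] at h6
      have h8 := h6.unique (hasFDerivAt_const (0 : H) b)
      have h9 := congrArg (fun L : Bs →L[ℝ] H => L β) h8
      simpa using h9
    rwa [h4] at h3
  have hlim := (tendsto_const_nhds (x := Cinf η A b β)).add hG
  rw [add_zero] at hlim
  refine hlim.congr' ?_
  filter_upwards [hfar] with t ht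
  have hbr : IsBr Yinf (b, (t : ℂ)) := isBr_Yinf ht
  have h1 := etaP_eq_far h (p := (b, (t : ℂ))) hb ht hbr
  have h2 := etaP_inf_pos h hb ht
  have h3 : etaP η A b (t : ℂ) (Yinf (b, (t : ℂ))) (β, 0) = Cinf η A b β := by
    have h4 : etaP η A b (t : ℂ) (Yinf (b, (t : ℂ))) (β, 0) =
        ((Cinf η A b).comp (ContinuousLinearMap.fst ℝ Bs ℂ)) (β, 0) :=
      congrArg (fun L : Bs × ℂ →L[ℝ] H => L (β, 0)) h2
    rw [h4]
    rfl
  have h5 : fderiv ℝ (eI A Yinf) (b, (t : ℂ)) (β, 0) =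
      fderiv ℝ (Gw A) (b, ((t : ℂ))⁻¹) (β, 0) := by
    have h6 : eI A Yinf =ᶠ[𝓝 (b, (t : ℂ))] fun p => Gw A (p.1, p.2⁻¹) := by
      filter_upwards [isOpen_Far.mem_nhds ht] with p hp
      exact eI_eq_Gw hp
    rw [h6.fderiv_eq]
    have h7 : HasFDerivAt (Gw A) (fderiv ℝ (Gw A) (b, ((t : ℂ))⁻¹)) (b, ((t : ℂ))⁻¹) :=
      ((contDiffAt_Gw (h.smoothA b hb) (Far.mem_DI ht)).differentiableAt (by simp)).hasFDerivAt
    have h8 : HasFDerivAt (fun c : Bs => Gw A (c, ((t : ℂ))⁻¹))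
        ((fderiv ℝ (Gw A) (b, ((t : ℂ))⁻¹)).comp (ContinuousLinearMap.inl ℝ Bs ℂ)) b :=
      HasFDerivAt.comp (g := Gw A) (f := fun c : Bs => ((c, ((t : ℂ))⁻¹) : Bs × ℂ)) b h7
        (hasFDerivAt_prodMk_left b _)
    have hd : DifferentiableAt ℝ (fun p : Bs × ℂ => Gw A (p.1, p.2⁻¹)) (b, (t : ℂ)) := by
      have h9 : DifferentiableAt ℝ (fun p : Bs × ℂ => ((p.1, p.2⁻¹) : Bs × ℂ)) (b, (t : ℂ)) := by
        have h10 : DifferentiableAt ℝ (fun p : Bs × ℂ => p.2⁻¹) (b, (t : ℂ)) :=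
          differentiableAt_snd.fun_inv (Far.ne_zero ht)
        exact differentiableAt_fst.prodMk h10
      exact DifferentiableAt.comp (g := Gw A) (f := fun p : Bs × ℂ => ((p.1, p.2⁻¹) : Bs × ℂ))
        (b, (t : ℂ)) h7.differentiableAt h9
    have h11 : HasFDerivAt (fun c : Bs => Gw A (c, ((t : ℂ))⁻¹))
        ((fderiv ℝ (fun p : Bs × ℂ => Gw A (p.1, p.2⁻¹)) (b, (t : ℂ))).comp
          (ContinuousLinearMap.inl ℝ Bs ℂ)) b :=
      HasFDerivAt.comp (g := fun p : Bs × ℂ => Gw A (p.1, p.2⁻¹))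
        (f := fun c : Bs => ((c, (t : ℂ)) : Bs × ℂ)) b hd.hasFDerivAt
        (hasFDerivAt_prodMk_left b _)
    have h12 := congrArg (fun L : Bs →L[ℝ] H => L β) (h11.unique h8)
    simpa using h12
  rw [← h5, ← h3, h1]
  simp

/-- bound of `Cinf` -/
theorem norm_Cinf_le (h : FlatOn O η A) {b : Bs} (hb : b ∈ O) {β : Bs} {M R : ℝ}
    (hM : ∀ x y : ℂ, y ^ 2 = ff (b, x) → y ≠ 0 → R ≤ ‖x‖ → ‖η b x y (β, 0)‖ ≤ M) :
    ‖Cinf η A b β‖ ≤ M := by
  refine le_of_tendsto (tendsto_Cinf h hb β).norm ?_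
  filter_upwards [eventually_ge_atTop (2 * Rr b), eventually_ge_atTop 0, eventually_ge_atTop R]
    with t ht ht0 htR
  have h1 : ‖(t : ℂ)‖ = t := by
    rw [Complex.norm_real, Real.norm_eq_abs, abs_of_nonneg ht0]
  have h2 : (b, (t : ℂ)) ∈ Far := far_of_le (by rw [h1]; exact ht)
  have h3 := isBr_Yinf h2
  exact hM _ _ h3.sq.self_of_nhds h3.ne_zero (by rw [h1]; exact htR)

end Inf

end Vale.Agent.P273.H787

end
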