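import Vale.Agent.P273.H787.Zone1
import Vale.Agent.P273.H214.OneZ
import Vale.Agent.P273.H580.The

/-!
# P273, row ASY1, zones for `theOne` (helper787)
-/

noncomputable section

namespace Vale.Agent.P273.H787

open H214 H730

theorem isCutOf_oneOf (Φ : FlatFam) : IsCutOf (oneOf Φ) Φ.η Φ.A :=
  ⟨Φ.flat, fun ξ b x v _ _ _ => oneOf_false Φ ξ (b, x) v⟩

theorem rootO : RootO H580.theOne := rootO_of (isCutOf_oneOf H580.theFlatFam)

theorem pairO : PairO H580.theOne := pairO_of (isCutOf_oneOf H580.theFlatFam)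

theorem farO : FarO H580.theOne := farO_of (isCutOf_oneOf H580.theFlatFam)

end Vale.Agent.P273.H787

end
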