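import Vale.Agent.P273.H787.WinA
import Vale.Agent.P273.H787.ZoneT
import Vale.Agent.P273.H598.Inst
import Vale.Agent.P273.H857.All
import Vale.Agent.P273.H188.Core1
import Vale.Agent.P273.H225.NkDef

/-!
# P273, row ASY1, window bound, second half (helper787)

`BaseA` of helper225 for the flat family, from the size of the coefficients.
-/

noncomputable section

namespace Vale.Agent.P273.H787.Win

open Set Filter Complex Metric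
open scoped Topology Real
open Vale.Agent.P273.H598
open Vale.Agent.P273.H681 (XX C6)
open Vale.Agent.P273.H95 (IsCl)
open Vale.Agent.P273.H730
open Vale.Agent.P273.H857 (lo piX)
open Vale.Agent.P273.H580 (AX cX pX theStms theFlatFam val_fl)

theorem potHyp : PotHyp := PotHyp.of H857.stmHOLn H857.stmHOLRn H857.stmROOTn H857.stmFLIPRn
  H857.stmFLIPLn

variable {k : Fin 5}

theorem bd_eq_bb (k : Fin 5) (q : C6) (d : ℂ) : bd k q d = bb k (d, q) := rfl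

theorem neg_mem_Sl {q : C6} {d : ℂ} (h : bd k q d ∈ XX) : -d ∈ H908.Sl := by
  have h1 := h k.castSucc k.succ (lt_succ' k)
  rw [bd_left, bd_right, sub_re, add_re, sub_im, add_im] at h1
  by_cases h2 : d.re = 0
  · left
    have := h1 (by rw [h2]; ring)
    rw [neg_im]
    linarith
  · right
    rw [neg_re]
    exact neg_ne_zero.2 h2

/-- sizes of the coefficients -/
def BdA : Prop := ∀ k : Fin 5, ∀ q₀ ∈ H828.XD k, ∃ U ∈ 𝓝 q₀, ∀ c, 0 < c →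
  ∃ M₀ B : ℝ, 0 < M₀ ∧ 0 < B ∧ ∀ q d, Adm k U c M₀ q d →
    (∀ ξ, IsCl ξ → ‖AX ξ (bd k q d)‖ ≤ B * ‖ξ‖) ∧ ‖AX (alc k) (bd k q d)‖ ≤ B * (yl c d)⁻¹

theorem bdA_of (h : H188.DatO AX cX) : BdA := by
  intro k q₀ hq₀
  obtain ⟨U, hU, h1⟩ := h k q₀ hq₀
  refine ⟨U, hU, fun c hc => ?_⟩
  obtain ⟨M₀, B, hM, hB, h2⟩ := h1 c hc
  exact ⟨M₀, B, hM, hB, fun q d ha => ⟨fun ξ hξ => (((h2 q d ha).1 ξ hξ).1).1,
    ((h2 q d ha).2).1⟩⟩

/-- a label off the pair -/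
theorem exists_off (k : Fin 5) : ∃ j : Fin 6, j ≠ k.castSucc ∧ j ≠ k.succ := by
  revert k; decide

/-- **the constant is bounded by the coefficients** -/
theorem c_local {k : Fin 5} {q₀ : C6} (h₀ : q₀ ∈ H828.XD k) :
    ∃ U ∈ 𝓝 q₀, ∃ ρ > 0, ∃ K, 0 ≤ K ∧ ∀ q ∈ U, ∀ d : ℂ, ‖d‖ < ρ → bd k q d ∈ XX →
      ∀ ξ, IsCl ξ → |cX ξ (bd k q d)| ≤ ‖ξ‖ + K * ‖AX ξ (bd k q d)‖ := by
  obtain ⟨V, ρ, h, hqV⟩ := exists_NB2 h₀
  have hρ := h.pos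
  obtain ⟨j, hj0, hj1⟩ := exists_off k
  have hmem : ((0 : ℂ), q₀) ∈ ball (0 : ℂ) ρ ×ˢ V := ⟨mem_ball_self hρ, hqV⟩
  have hkb : ∀ m ≤ 1, ∀ᶠ p : ℂ × C6 in 𝓝 (0, q₀),
      ‖piX m j (bb k p)‖ < ‖piX m j (bb k (0, q₀))‖ + 1 := by
    intro m hm
    have h3 := (NB.diff_piX h potHyp hm hj0 hj1).differentiableAt
      ((isOpen_ball.prod h.op).mem_nhds hmem)
    exact h3.continuousAt.norm.eventually (gt_mem_nhds (by linarith))
  have hev := (hkb 0 (by norm_num)).and (hkb 1 le_rfl)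
  rw [nhds_prod_eq] at hev
  obtain ⟨pa, ha, pb, hb, hab⟩ := Filter.eventually_prod_iff.1 hev
  obtain ⟨r, hr, hr2⟩ := Metric.eventually_nhds_iff.1 ha
  refine ⟨{q | pb q}, hb, r, hr,
    max (‖piX 0 j (bb k (0, q₀))‖ + 1) (‖piX 1 j (bb k (0, q₀))‖ + 1),
    le_trans (by positivity) (le_max_left _ _), fun q hq d hd hX ξ hξ => ?_⟩
  obtain ⟨g0, g1⟩ := hab (hr2 (by rwa [dist_zero_right])) hq
  have h1 := val_fl theStms (H580.isCl_alt hξ) (b := bd k q d) hX j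
  have h2 : ‖pX (bd k q d) j‖ ≤
      max (‖piX 0 j (bb k (0, q₀))‖ + 1) (‖piX 1 j (bb k (0, q₀))‖ + 1) := by
    rw [Prod.norm_def]
    exact max_le_max g0.le g1.le
  have h3 : |AX ξ (bd k q d) (pX (bd k q d) j)| ≤ ‖AX ξ (bd k q d)‖ * ‖pX (bd k q d) j‖ := by
    have := (AX ξ (bd k q d)).le_opNorm (pX (bd k q d) j)
    rwa [Real.norm_eq_abs] at this
  have h4 : |ξ j| ≤ ‖ξ‖ := by
    have := norm_le_pi_norm ξ j
    rwa [Real.norm_eq_abs] at this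
  have h5 : cX ξ (bd k q d) = ξ j - AX ξ (bd k q d) (pX (bd k q d) j) := by linarith
  rw [h5]
  refine (abs_sub _ _).trans (add_le_add h4 (h3.trans ?_))
  rw [mul_comm]
  exact mul_le_mul_of_nonneg_right h2 (norm_nonneg _)

theorem yl_eq {c : ℝ} (hc : 0 < c) {d : ℂ} (hd : d ≠ 0) :
    -Real.log ‖d‖ = yl c d / 2 - Real.log c := by
  unfold yl
  rw [Real.log_div hc.ne' (norm_ne_zero_iff.2 hd)]
  ring

theorem norm_d_eq {c : ℝ} (hc : 0 < c) {d : ℂ} (hd : d ≠ 0) :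
    ‖d‖ = c * Real.exp (-(yl c d / 2)) := by
  have h1 : Real.log ‖d‖ = Real.log c + -(yl c d / 2) := by
    have := yl_eq hc hd
    linarith
  rw [← Real.exp_log (norm_pos_iff.2 hd), h1, Real.exp_add, Real.exp_log hc]

theorem exp_neg_le_inv {y : ℝ} (hy : 0 < y) : Real.exp (-y) ≤ y⁻¹ := by
  rw [Real.exp_neg]
  exact inv_anti₀ hy (by linarith [Real.add_one_le_exp y])

theorem norm_alc (k : Fin 5) : ‖alc k‖ ≤ 1 := by
  rw [pi_norm_le_iff_of_nonneg zero_le_one]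
  intro j
  unfold alc
  split_ifs <;> simp

/-- **the coefficient of the logarithm**, for every class -/
theorem kapO (hA : BdA) : ∀ k : Fin 5, ∀ q₀ ∈ H828.XD k, ∃ U ∈ 𝓝 q₀, ∀ c, 0 < c →
    ∃ M₀ B : ℝ, 0 < M₀ ∧ 0 < B ∧ ∀ q d, Adm k U c M₀ q d → ∀ ξ, IsCl ξ → ∀ z : ℂ,
      |AX ξ (bd k q d) (z, q k.castSucc * z)| ≤
        B * (|ξ k.succ - ξ k.castSucc| + ‖ξ‖ * (yl c d)⁻¹) * ‖z‖ := by
  intro k q₀ hq₀
  obtain ⟨U₁, hU₁, hA1⟩ := hA k q₀ hq₀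
  obtain ⟨U₂, hU₂, ρ₂, hρ₂, K₂, hK₂, hc2⟩ := c_local hq₀
  obtain ⟨U₃, hU₃, ρ₃, hρ₃, hρ1, K₃, hK₃, hk3⟩ := kap_local potHyp hq₀
  refine ⟨U₁ ∩ (U₂ ∩ U₃), inter_mem hU₁ (inter_mem hU₂ hU₃), fun c hc => ?_⟩
  obtain ⟨M₁, B₁, hM₁, hB₁, hA2⟩ := hA1 c hc
  have hρ : 0 < min ρ₂ ρ₃ := lt_min hρ₂ hρ₃
  set M₀ : ℝ := max M₁ (max (4 * |Real.log c|) (2 * c / min ρ₂ ρ₃ + 1)) with hM₀
  have hpos : 0 < M₀ := hM₁.trans_le (le_max_left _ _)
  refine ⟨M₀, K₃ * (4 * (4 + K₂ * B₁ + B₁) + 1 + B₁ * c ^ 2) + 1, hpos, ?_, ?_⟩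
  · have : 0 ≤ K₃ * (4 * (4 + K₂ * B₁ + B₁) + 1 + B₁ * c ^ 2) := by positivity
    linarith
  intro q d ha ξ hξ z
  have hlen := ha.len
  have hy : 0 < yl c d := hpos.trans_le hlen
  have hy1 : 4 * |Real.log c| ≤ yl c d :=
    ((le_max_left _ _).trans (le_max_right _ _)).trans hlen
  have hy2 : 2 * c / min ρ₂ ρ₃ + 1 ≤ yl c d :=
    ((le_max_right _ _).trans (le_max_right _ _)).trans hlen
  have ha1 : Adm k U₁ c M₁ q d :=
    ⟨ha.qU.1, ha.qX, ha.d0, (le_max_left _ _).trans hlen, ha.mem⟩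
  have hdn := norm_d_eq hc ha.d0
  have hd1 : ‖d‖ < min ρ₂ ρ₃ := by
    have h1 : Real.exp (-(yl c d / 2)) ≤ (yl c d / 2)⁻¹ := exp_neg_le_inv (by positivity)
    have h2 : ‖d‖ ≤ c * (yl c d / 2)⁻¹ := by
      rw [hdn]; exact mul_le_mul_of_nonneg_left h1 hc.le
    have h3 : c * (yl c d / 2)⁻¹ < min ρ₂ ρ₃ := by
      rw [← div_eq_mul_inv, div_lt_iff₀ (by positivity)]
      have h4 : 2 * c / min ρ₂ ρ₃ < yl c d := by linarith
      rw [div_lt_iff₀ hρ] at h4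
      linarith
    exact h2.trans_lt h3
  have hM : yl c d / 4 ≤ -Real.log ‖d‖ := by
    rw [yl_eq hc ha.d0]
    linarith [le_abs_self (Real.log c)]
  have hL : 0 < -Real.log ‖d‖ := lt_of_lt_of_le (by positivity) hM
  have hd2 : ‖d‖ ^ 2 ≤ c ^ 2 * (yl c d)⁻¹ := by
    have h1 : ‖d‖ ^ 2 = c ^ 2 * Real.exp (-(yl c d)) := by
      rw [hdn, mul_pow, ← Real.exp_nat_mul]
      congr 2
      push_cast
      ring
    rw [h1]
    exact mul_le_mul_of_nonneg_left (exp_neg_le_inv hy) (by positivity)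
  have hAn := (hA2 q d ha1).1 ξ hξ
  have hcn := hc2 q ha.qU.2.1 d (hd1.trans_le (min_le_left _ _)) ha.mem ξ hξ
  have e0 := val_fl theStms (H580.isCl_alt hξ) (b := bd k q d) ha.mem k.castSucc
  have e1 := val_fl theStms (H580.isCl_alt hξ) (b := bd k q d) ha.mem k.succ
  have key := hk3 q ha.qU.2.2 d (neg_mem_Sl ha.mem) (hd1.trans_le (min_le_right _ _))
    (AX ξ (bd k q d)) (cX ξ (bd k q d)) _ _ e0 e1 z
  have n0 : |ξ k.castSucc| ≤ ‖ξ‖ := by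
    have := norm_le_pi_norm ξ k.castSucc
    rwa [Real.norm_eq_abs] at this
  have n1 : |ξ k.succ| ≤ ‖ξ‖ := by
    have := norm_le_pi_norm ξ k.succ
    rwa [Real.norm_eq_abs] at this
  set β := |ξ k.succ - ξ k.castSucc| with hβ
  have n2 : β ≤ 2 * ‖ξ‖ := by
    have := abs_sub (ξ k.succ) (ξ k.castSucc)
    linarith
  set N := ‖ξ‖ with hN
  have hN0 : 0 ≤ N := norm_nonneg _
  set t := (yl c d)⁻¹ with ht
  have ht0 : 0 < t := inv_pos.2 hy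
  have hβ0 : 0 ≤ β := abs_nonneg _
  have s1 : |ξ k.castSucc| + |cX ξ (bd k q d)| + ‖AX ξ (bd k q d)‖ + β ≤
      (4 + K₂ * B₁ + B₁) * N := by
    have : K₂ * ‖AX ξ (bd k q d)‖ ≤ K₂ * (B₁ * N) := mul_le_mul_of_nonneg_left hAn hK₂
    nlinarith
  have s2 : (|ξ k.castSucc| + |cX ξ (bd k q d)| + ‖AX ξ (bd k q d)‖ + β) / (-Real.log ‖d‖) ≤
      4 * (4 + K₂ * B₁ + B₁) * (N * t) := by
    have h1 : (|ξ k.castSucc| + |cX ξ (bd k q d)| + ‖AX ξ (bd k q d)‖ + β) / (-Real.log ‖d‖) ≤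
        ((4 + K₂ * B₁ + B₁) * N) / (yl c d / 4) :=
      div_le_div₀ (by positivity) s1 (by positivity) hM
    refine h1.trans (le_of_eq ?_)
    rw [ht]
    field_simp
  have s3 : ‖AX ξ (bd k q d)‖ * ‖d‖ ^ 2 ≤ B₁ * c ^ 2 * (N * t) := by
    calc _ ≤ (B₁ * N) * (c ^ 2 * t) := mul_le_mul hAn hd2 (by positivity) (by positivity)
      _ = _ := by ring
  refine key.trans ?_
  have hz := norm_nonneg z
  have hNt : 0 ≤ N * t := by positivity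
  have s4 : (|ξ k.castSucc| + |cX ξ (bd k q d)| + ‖AX ξ (bd k q d)‖ + β) / (-Real.log ‖d‖) + β +
      ‖AX ξ (bd k q d)‖ * ‖d‖ ^ 2 ≤ (4 * (4 + K₂ * B₁ + B₁) + 1 + B₁ * c ^ 2) * (β + N * t) := by
    have h2 : 0 ≤ (4 * (4 + K₂ * B₁ + B₁) + B₁ * c ^ 2) * β := by positivity
    nlinarith
  calc _ ≤ K₃ * ‖z‖ * ((4 * (4 + K₂ * B₁ + B₁) + 1 + B₁ * c ^ 2) * (β + N * t)) :=
        mul_le_mul_of_nonneg_left s4 (by positivity)
    _ = (K₃ * (4 * (4 + K₂ * B₁ + B₁) + 1 + B₁ * c ^ 2)) * (β + N * t) * ‖z‖ := by ring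
    _ ≤ _ := by
        refine mul_le_mul_of_nonneg_right (mul_le_mul_of_nonneg_right ?_ (by positivity)) hz
        linarith

/-- **`BaseA` of helper225** -/
theorem baseA_of (hA : BdA) : H225.BaseA theFlatFam := by
  intro k q₀ hq₀
  obtain ⟨U₁, hU₁, h1⟩ := hA k q₀ hq₀
  obtain ⟨U₂, hU₂, h2⟩ := kapO hA k q₀ hq₀
  refine ⟨U₁ ∩ U₂, inter_mem hU₁ hU₂, 1, one_pos, fun c hc _ => ?_⟩
  obtain ⟨M₁, B₁, hM₁, hB₁, h3⟩ := h1 c hc
  obtain ⟨M₂, B₂, hM₂, hB₂, h4⟩ := h2 c hc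
  refine ⟨max M₁ M₂, max B₁ B₂, hM₁.trans_le (le_max_left _ _), hB₁.trans_le (le_max_left _ _),
    fun q d ha ξ hξ => ?_⟩
  have ha1 : Adm k U₁ c M₁ q d :=
    ⟨ha.qU.1, ha.qX, ha.d0, (le_max_left _ _).trans ha.len, ha.mem⟩
  have ha2 : Adm k U₂ c M₂ q d :=
    ⟨ha.qU.2, ha.qX, ha.d0, (le_max_right _ _).trans ha.len, ha.mem⟩
  have hy : 0 < yl c d := (hM₁.trans_le (le_max_left _ _)).trans_le ha.len
  refine ⟨((h3 q d ha1).1 ξ hξ).trans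
    (mul_le_mul_of_nonneg_right (le_max_left _ _) (norm_nonneg _)), fun he z => ?_,
    ((h3 q d ha1).2).trans (mul_le_mul_of_nonneg_right (le_max_left _ _) (inv_pos.2 hy).le)⟩
  have h5 := h4 q d ha2 ξ hξ z
  rw [he, sub_self, abs_zero, zero_add, ← mul_assoc] at h5
  refine h5.trans (mul_le_mul_of_nonneg_right ?_ (norm_nonneg _))
  exact mul_le_mul_of_nonneg_right (mul_le_mul_of_nonneg_right (le_max_right _ _)
    (norm_nonneg _)) (inv_pos.2 hy).le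

end Vale.Agent.P273.H787.Win

end
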